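import Crest.Agent.X212.Num36.Cx
import Crest.Agent.X212.Cok75.Fam
import Crest.Agent.X212.Gb54.Gm
import Crest.Agent.X212.End14.Free
import Crest.Agent.X212.Nat27.Ix

/-! # Row 212 (helper36): no cokernel at an anti-self-dual connection on a positive manifold -/

set_option autoImplicit false
set_option linter.unusedSectionVars false
noncomputable section
open scoped Manifold ContDiff Topology InnerProductSpace
open MeasureTheory Set Function Filter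

namespace Crest.Agent.X212.Num36
open An An.Pre Sob92 Mod61 Map77 Nk89

variable {E : Type} [NormedAddCommGroup E] [NormedSpace ℝ E] [FiniteDimensional ℝ E]
  [MeasurableSpace E] [BorelSpace E]
  {HM : Type} [TopologicalSpace HM] {I : ModelWithCorners ℝ E HM} [I.Boundaryless]
  {M : Type} [TopologicalSpace M] [ChartedSpace HM M] [IsManifold I ∞ M]
  [MeasurableSpace M] [T2Space M] [BorelSpace M] [SecondCountableTopology M]
  {κ lam : Type} [Fintype κ] [Fintype lam]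

theorem as_pt {ι : Type} [Fintype ι] {m : Md M ι lam} {B : Base M ι lam} {G : Geo I M ι lam}
    {W : m.Cn} {x : M} (hB : B.OK I) (hG : G.OK B) (H : m.OK I B) (C : m.IsConn B G W)
    (hA : m.p2 B x (m.Fg G.F W x) = 0) {ξ : m.A} (h : m.pg x ξ = ξ) :
    m.p2 B x (WithLp.toLp 2 fun s => adc (Wz78.curv I G.F.e G.F.c W s.1 s.2 x) ξ) = 0 :=
  fm_ext fun s => by
    have k : ∑ t, B.sd x s t • m.Fg G.F W x t = 0 := by
      simpa only [Md.p2, Wz78.idx_apply, Wz78.pg_of_mem (Wz78.Fg_mem _ _), PiLp.zero_apply] using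
        congrArg (fun z : Fm ((ι × ι)) m.A => z s) hA
    have := congrArg (fun η => m.pg x (Wz78.adcL (opL η) ξ)) k
    simp only [map_sum, map_smul, _root_.sum_apply, smul_apply, map_zero, zero_apply] at this
    simp only [Md.p2, Wz78.idx_apply, Wz78.adc_curv_g hB hG H C _ _ h]
    exact this

variable {T : Type} [NormedAddCommGroup T] [NormedSpace ℝ T] {r k : ℕ}
  {𝔉 : Fam I M (Option κ) lam T} {δ : ℝ} {o : Ref 𝔉}

/-- **COKA** -/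
theorem fam_surj (X : Ends 𝔉 δ) (hO : 𝔉.Om' = ∅) (hk : 7 ≤ k) (y : Pnt o r)
    (he : ∀ x ∈ 𝔉.Om, ∃ a, ((X.P a).U X.R ∩ connectedComponent x).Nonempty)
    (hp : ∀ x ∈ 𝔉.Om, Lns95.PosW 𝔉.B (𝔉.G y.t) (1 / 2) x)
    (hA : ∀ x ∈ 𝔉.Om, o.m.p2 𝔉.B x (o.m.Fg (𝔉.G y.t).F y.cfg.W x) = 0) :
    Surjective ((bd o).FF 𝔉.F0.toPre (Fs 𝔉 y.t) k (uy y)) := by
  have h := adj_rem X.ok
  have H := h.hy o y.ht
  have hG := X.ok.G _ y.ht
  have cu := cb_uy X.ok y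
  have k3 : 3 ≤ k := by omega
  have bij := h.sig_bij_hdy k3 (hdy_rem X.ok X.hdy y.ht) (Gb54.isD X.ok hk y) (Gb54.d_inj X.ok hk
    (((Gb54.gmE o X.ok hk r X.hdy).free_iff X.ok k3).2
      (End14.free X o r y fun x hx => .inl (he x hx))))
  rw [h.sig_d k3 (Gb54.isD X.ok hk y)] at bij
  have e : uy y = base (o.W y.t y.α) 0 :=
    congrArg _ (funext fun x => y.off X.ok x (hO ▸ notMem_empty x))
  have eb : bd o = Cok75.bΩ 𝔉.Om o := congrArg (Wz78.ind (Wz78.bdOf 𝔉.B o.m) 𝔉.Om) hO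
  have a : o.m.IsConn 𝔉.B (𝔉.G y.t) (o.W y.t y.α) := (y.ad0 X.ok).conn
  have C := (Wz78.cp_of X.ok.B hG o.ok a).ind X.ok.Om X.ok.Om'
  have su := Cok75.surj_Ω X X.ok.Om y hp hA k
  rw [e] at bij cu ⊢
  rw [← eb] at su
  have C' : Wz78.Cp (bd o) (Fs 𝔉 y.t) (𝔉.G y.t).F.Gam (o.W y.t y.α) := ⟨C.ok, C.P, C.lc, C.so, C.sρ,
    C.sg, C.ssp, C.ssm, C.con, C.sk, C.g, C.sp, C.sm, C.ρ⟩
  refine ff_surj H cu (cx C' H cu (fun x ξ (hξ : o.Pg x ξ = ξ) => ?_) k) su bij.2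
  rw [eb]
  by_cases hx : x ∈ 𝔉.Om
  · rw [Cok75.p2_in hx]
    exact as_pt X.ok.B hG o.ok a (hA x hx)
      ((DFunLike.congr_fun (indicator_of_mem hx o.m.pg) ξ).symm.trans hξ)
  · rw [Cok75.p2_off hx]; rfl

theorem rep_asd (h : 𝔉.OK) {y : Pnt o r} {c : Cfg M (Option κ) lam r} (a : Adm0 c 𝔉.B (𝔉.G y.t))
    (R : Rep c y) {x : M} (hx : x ∈ 𝔉.Om) (hA : c.m.p2 𝔉.B x (c.m.Fg (𝔉.G y.t).F c.W x) = 0) :
    o.m.p2 𝔉.B x (o.m.Fg (𝔉.G y.t).F y.cfg.W x) = 0 := by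
  obtain ⟨u, ζ, e⟩ := R
  exact (Eqv71.ceq_p2F (Eqv71.lg_refl h.B (h.G _ y.ht) h.Om.2) ⟨a.ok, a.conn, a.sm, a.pos⟩ (y.ad0 h) e
    hx).trans (by rw [hA]; exact map_zero _)

theorem fam_le (X : Ends 𝔉 δ) (hO : 𝔉.Om' = ∅) (hk : 7 ≤ k) {y : Pnt o r}
    {c : Cfg M (Option κ) lam r} (a : Adm0 c 𝔉.B (𝔉.G y.t)) (R : Rep c y)
    (he : ∀ x ∈ 𝔉.Om, ∃ a, ((X.P a).U X.R ∩ connectedComponent x).Nonempty)
    (hp : ∀ x ∈ 𝔉.Om, Lns95.PosW 𝔉.B (𝔉.G y.t) (1 / 2) x)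
    (hA : ∀ x ∈ 𝔉.Om, c.m.p2 𝔉.B x (c.m.Fg (𝔉.G y.t).F c.W x) = 0) {n m : ℕ} {d : ℤ}
    (H : Idx k (𝔉.eq0 r n m) y d) : 0 ≤ d :=
  (Nat27.idx_ff X.ok (by omega) H).nonneg_of_surj
    (fam_surj X hO hk y he hp fun x hx => rep_asd X.ok a R hx (hA x hx))

end Crest.Agent.X212.Num36
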