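import Crest.Agent.X212.Num36.Fsj
import Crest.Agent.X212.Add46.Bg
import Crest.Agent.X212.Lix26.Geo
import Crest.Agent.X212.Num99.Defs

/-! # Row 212 (helper36): the index of an anti-self-dual connection inside a lens wall -/

set_option autoImplicit false
set_option linter.unusedSectionVars false
noncomputable section
open scoped Manifold ContDiff Topology InnerProductSpace
open MeasureTheory Set Function Filter

namespace Crest.Agent.X212.Num36
open An An.Pre Sob92 Mod61 Map77 Nk89 M Nd18 Cht98 Rf65 Lns95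

section job
variable {Wi : Type} {X : Mf 4} {A κ lam : Type} [Fintype A] [Fintype κ] [Fintype lam]
  [DecidableEq lam] {M : Mark X A κ} {W : World M} {N : ML M lam} {Λ : Lns W N}
  {A' h : Type} [Fintype A'] [DecidableEq A'] [Fintype h] {r n : ℕ}
  {J : Job Wi Λ A' h r n} {c : M.Cl} {δ : ℝ} {P P' : Set (Reg A)} {d : ℤ}
  (hJ : J.OK) (h0 : 0 < δ) (h1 : δ ≤ dl0) (hP : ∀ π ∈ P, M.sys.Piece c.1 π)
  (he : ∀ π ∈ P, ∃ i : Ed c, π i.1 = some i.2)
include hJ h0 h1 hP he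

theorem ends (hs : P' ⊆ P) (b : Bp J c) : ∀ x ∈ W.un c P, ∃ a, (((Add46.jGR hJ hP hs b h0 h1).X.P a).U
    (Add46.jGR hJ hP hs b h0 h1).X.R ∩ connectedComponent x).Nonempty := fun x hx => by
  obtain ⟨π, k, hx⟩ := mem_un.1 hx
  obtain ⟨i, e⟩ := he π k
  obtain ⟨y⟩ := (J.conn_xs i.1).toNonempty
  have u := End14.pt_U ((Add46.jGR hJ hP hs b h0 h1).X.okP i) le_rfl (lt_add_one _) y
  exact ⟨i, _, u, (Cyl58.isConnected_pc _ (hP π k)).subset_connectedComponent hx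
    (Add46.tgt_pc hJ b i (hP π k) e u.1)⟩

/-- **COKA** -/
theorem coka {y : J.Obc c} (g : Go δ y P)
    (pw : ∀ x ∈ W.un c P, PosW (J.B c) (J.G c y.s) (1 / 2) x)
    (as : ∀ x ∈ W.un c P, y.x.m.p2 (J.B c) x (y.x.m.Fg (J.G c y.s).F y.x.W x) = 0)
    (e : Ix δ y P ∅ d) : 0 ≤ d := by
  obtain ⟨⟨s, _, _⟩, o, -, x, e, -, -, -, k, l⟩ := e
  obtain rfl : s = y.s := e
  let G : Ends (g.bp.Fm P ∅ (fun _ : T0 => y.s) δ) δ :=
    (Add46.jGR hJ hP (empty_subset _) g.bp h0 h1).X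
  exact fam_le (y := x) G (biUnion_empty _) (by norm_num) g.adm k
    (ends hJ h0 h1 hP he _ g.bp) pw as l

end job

open G75 Num99
variable {κ lam : Type} [Fintype κ] [Fintype lam] [DecidableEq lam] {Lm : LM κ lam}
  {S : Scene Lm} {D : S.Dat} {i : S.L} {Wi A' h : Type} [Fintype A'] [DecidableEq A'] [Fintype h]
  {r n : ℕ} {J : Job Wi (D.Λ i) A' h r n} {c : S.M.Cl} {l : S.ls} {δ : ℝ} {z : J.Obc c} {d : ℤ}

theorem posw (H : LH Lm) (hS : S.OK) (hl : l.1 ∈ c.1) (g : Go δ z {hp l.1 false}) :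
    ∀ x ∈ D.W.un c {hp l.1 false}, PosW (J.B c) (J.G c z.s) (1 / 2) x := fun x hx => by
  rw [un_one, Lix26.pc_eq hS D l hl] at hx
  exact H.lok.choose.posW hS D l g.br (by rw [show (J.Θ z.s).2 l = 1 from g.br.2 hl]; exact one_ne_zero)
    i Lns4.neck g.O J.m hx

/-- anti-self-dual connections inside a lens wall -/
theorem asd (H : LH Lm) (hS : S.OK) (hJ : J.OK) (hl : l.1 ∈ c.1) (h0 : 0 < δ) (h1 : δ ≤ dl0)
    (g : Go δ z {hp l.1 false}) (as : ∀ x ∈ D.W.pc c (hp l.1 false),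
      z.x.m.p2 (J.B c) x (z.x.m.Fg (J.G c z.s).F z.x.W x) = 0)
    (e : Ix δ z {hp l.1 false} ∅ d) : 0 ≤ d :=
  coka (P := {hp l.1 false}) hJ h0 h1 (forall_eq.2 (Lix26.piece hS l hl))
    (forall_eq.2 ⟨(⟨l, hl, hS.lsp l l.2⟩, false), if_pos rfl⟩) g (posw H hS hl g)
    (fun x hx => as x ((un_one _ _ _).le hx)) e

/-- **CLAUSE FA** -/
theorem faS (H : LH Lm) (ex : AllL Lm fun J c δ l => ∀ z : J.Obc c, Go δ z {hp l false} →
    Ix δ z {hp l false} ∅ (ia δ z (hp l false))) : FaS Lm :=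
  fun S D i Wi A' h _ _ _ r n J c l a b d e f g k =>
    let ⟨u, u0, hu⟩ := ex S D i Wi A' h r n J c l a b d e f g k
    ⟨min u dl0, lt_min u0 dl0_pos, fun δ hδ z go fl => asd H a b e hδ.1 (hδ.2.trans (min_le_right _ _))
      go (fun x hx => by rw [fl x hx, map_zero]) (hu δ ⟨hδ.1, hδ.2.trans (min_le_left _ _)⟩ z go)⟩

end Crest.Agent.X212.Num36
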