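import Crest.Agent.X212.Wz78.Boch
import Crest.Agent.X212.Map77.Qm

/-! # Row 212 (helper36): the deformation complex at an anti-self-dual connection -/

set_option autoImplicit false
set_option linter.unusedSectionVars false
noncomputable section
open scoped Manifold ContDiff Topology InnerProductSpace
open MeasureTheory Set Function Filter

namespace Crest.Agent.X212.Num36
open An An.Pre Sob92 Ell97 Prm93 Map77 Wz78

variable {E : Type} [NormedAddCommGroup E] [NormedSpace ℝ E] [FiniteDimensional ℝ E]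
  [MeasurableSpace E] [BorelSpace E]
  {HM : Type} [TopologicalSpace HM] {I : ModelWithCorners ℝ E HM} [I.Boundaryless]
  {M : Type} [TopologicalSpace M] [ChartedSpace HM M] [IsManifold I ∞ M]
  [MeasurableSpace M] [T2Space M] [BorelSpace M] [SecondCountableTopology M]
  {ι ι' κ : Type} [Fintype ι] [Fintype ι'] [Fintype κ] [DecidableEq κ]
  {d : Bd M ι κ} {F : Fr I M ι'} {G : Fr I M ι} {Γ : ι → ι → ι → M → ℝ} {W : ι → M → En κ}

theorem d0_app (C : Cp d G Γ W) (ξ : Sec I d.g) (x : M) :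
    (∀ a, fa ((d.d0 G (base W 0)).app G ξ.1 x) a = -nab I G.e (adw W) a ξ.1 x) ∧
      fp ((d.d0 G (base W 0)).app G ξ.1 x) = 0 := by
  classical
  have g := fun a => Cp.par_nab (F := G) (A := adw W) (a := a) (C.sg x) (C.g a x) (ξ.2.1 x) ξ.2.2.2
  rw [(C.rp_d0 0).app (ξ.2.2.2 x)]
  simp only [dop, C.ok.d0_σ, g, map_add, map_sum, map_neg, f2_i1, s2_i1, fa_z0, fp_z0, add_zero]
  refine ⟨fun a => ?_, by simp⟩
  have := (frm G).projN C.con_adw a ξ.1 x
  rw [C.P] at this
  simp [ea_apply, Bd.Px, this]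

/-- the deformation complex at an anti-self-dual connection -/
theorem cx (C : Cp d G Γ W) (H : d.Hy F G) (cu : F.Cb (base W 0))
    (as : ∀ x ξ, d.g x ξ = ξ →
      d.p2 x (WithLp.toLp 2 fun s => adc (curv I G.e G.c W s.1 s.2 x) ξ) = 0) (k : ℕ) :
    d.LL F.toPre G k (base W 0) ∘L d.DD F.toPre G (k + 1) (base W 0) = 0 := by
  have r := H.toTw.rep (H.nc_d0 cu) (k + 1)
  refine RepT_eq (RepT_comp (H.toTw.rep (H.nc_lin cu) k) r) RepT_zero fun ξ => funext fun x => ?_
  obtain ⟨su, -, pu⟩ := RepT_mem r ξ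
  have e := d0_app C ξ
  have h1 := C.full_dir (su x) pu 0
  have h2 := C.full_crv (su x) pu 0
  have h3 := congrArg (s2 _ _) (op_pair G.toPre ((d.d0 G (base W 0)).adj G) (d.lin G (base W 0))
    ((d.d0 G (base W 0)).app G ξ.1) x)
  simp only [map_add, s2_i1, s2_i2, zero_add] at h3
  refine h3.symm.trans (ext2 (h1.trans ?_) (h2.trans ?_))
  · simp only [Op.app] at e
    simp [(e _).2, dir, nab, dv_const]
  · simp only [Op.app] at e
    have n := fun a => (frm G).sN (C.con_adw.sm · x) a (ξ.2.1 x)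
    have c : ∀ a b, cov I G.e Γ (adw W) (fun b y => -nab I G.e (adw W) b ξ.1 y) a b x =
        -hess I G.e Γ (adw W) a b ξ.1 x := fun a b => by
      have := nab_smul (e := G.e) (A := adw W) a (contMDiffAt_const (c := (-1 : ℝ))) (n b)
      simp only [dv_const, neg_smul, one_smul, Pi.zero_apply, zero_smul, zero_add] at this
      simp only [cov, hess, this, smul_neg, Finset.sum_neg_distrib]
      abel
    have := congrArg Neg.neg (as x _ (ξ.2.2.2 x))
    rw [← map_neg, neg_zero] at this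
    refine Eq.trans (congrArg _ (fm_ext fun s => ?_)) (this.trans (by simp))
    simp only [(e _).1, (e _).2, c, map_zero, Pi.zero_apply, PiLp.neg_apply, ← C.curv_adw,
      ← C.lc.hess_skew (frm G) C.con_adw _ _ (ξ.2.1 x)]
    rw [show rk1 (0 : Eu κ) 0 = 0 by ext1; simp [rk1]]
    simp
    abel

/-- onto, from the curvature row and the Laplacian -/
theorem ff_surj (H : d.Hy F G) {u : M → Cf ι κ} (cu : F.Cb u) {k : ℕ}
    (h0 : d.LL F.toPre G k u ∘L d.DD F.toPre G (k + 1) u = 0)
    (h1 : Surjective (d.LL F.toPre G k u))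
    (h2 : Surjective (d.RR F.toPre G k u ∘L d.DD F.toPre G (k + 1) u)) :
    Surjective (d.FF F.toPre G k u) := fun w => by
  obtain ⟨a, ha⟩ := h1 (sH _ k _ _ w)
  obtain ⟨ξ, hξ⟩ := h2 (fH _ k _ _ w - d.RR F.toPre G k u a)
  refine ⟨a + d.DD F.toPre G (k + 1) u ξ, ?_⟩
  have e : d.LL F.toPre G k u (d.DD F.toPre G (k + 1) u ξ) = 0 := DFunLike.congr_fun h0 ξ
  rw [H.FF_eq cu, map_add, map_add (d.LL F.toPre G k u), e, ha, add_zero,
    show d.RR F.toPre G k u (d.DD F.toPre G (k + 1) u ξ) = _ from hξ, add_sub_cancel, iH_add]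

end Crest.Agent.X212.Num36
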